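import Mathlib

/-!
Definitions for P073 (Ball-Evans): Sobolev homeomorphisms and diffeomorphisms between
subsets of `ℝ^n`.
-/

namespace Vale.Agent.P073.Balls

open MeasureTheory Set
open scoped ENNReal ContDiff

/-- Euclidean space. -/
abbrev Sp (n : ℕ) := EuclideanSpace ℝ (Fin n)

/-- `G` is the weak derivative of `f` on `Ω`. -/
def IsWeakDeriv {n : ℕ} (Ω : Set (Sp n)) (f : Sp n → Sp n) (G : Sp n → Sp n →L[ℝ] Sp n) : Prop :=
  ∀ φ : Sp n → ℝ, ContDiff ℝ ∞ φ → HasCompactSupport φ → tsupport φ ⊆ Ω → ∀ v : Sp n,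
    ∫ x, φ x • G x v = -∫ x, fderiv ℝ φ x v • f x

/-- Linear maps of `ℝ^n`. -/
abbrev Mat (n : ℕ) := Sp n →L[ℝ] Sp n

/-- Lebesgue measure on `Ω`. -/
noncomputable def vol {n : ℕ} (Ω : Set (Sp n)) : Measure (Sp n) := volume.restrict Ω

/-- `f ∈ L^p(Ω; ℝ^n)`. -/
def InLp {n : ℕ} (p : ℝ) (Ω : Set (Sp n)) (f : Sp n → Sp n) : Prop :=
  MemLp f (ENNReal.ofReal p) (vol Ω)

/-- `G ∈ L^p(Ω; ℝ^{n×n})`. -/
def InLpMat {n : ℕ} (p : ℝ) (Ω : Set (Sp n)) (G : Sp n → Mat n) : Prop :=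
  MemLp G (ENNReal.ofReal p) (vol Ω)

/-- The classical derivative. -/
noncomputable def dgrad {n : ℕ} (g : Sp n → Sp n) (x : Sp n) : Mat n := fderiv ℝ g x

/-- Distance of two matrices in the operator norm, to the power `p`. -/
noncomputable def matDist {n : ℕ} (p : ℝ) (A B : Mat n) : ℝ≥0∞ := ‖A - B‖ₑ ^ p

/-- Distance of two vectors, to the power `p`. -/
noncomputable def vecDist {n : ℕ} (p : ℝ) (a b : Sp n) : ℝ≥0∞ := ‖a - b‖ₑ ^ p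

/-- `∫_Ω (|g - f|^p + |Dg - G|^p)`. -/
noncomputable def w1pErr {n : ℕ} (p : ℝ) (Ω : Set (Sp n)) (f : Sp n → Sp n) (G : Sp n → Mat n)
    (g : Sp n → Sp n) : ℝ≥0∞ :=
  ∫⁻ x, (vecDist p (g x) (f x) + matDist p (dgrad g x) (G x)) ∂vol Ω

/-- `f` is a `W^{1,p}` homeomorphism of `Ω` onto `Λ`, with weak derivative `G`. -/
structure IsSobolevHomeo {n : ℕ} (Ω Λ : Set (Sp n)) (p : ℝ) (f : Sp n → Sp n)
    (G : Sp n → Mat n) : Prop where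
  bij : BijOn f Ω Λ
  cont : ContinuousOn f Ω
  cont_inv : ∃ i : Sp n → Sp n, ContinuousOn i Λ ∧ InvOn i f Ω Λ
  weak : IsWeakDeriv Ω f G
  mem : InLp p Ω f
  memD : InLpMat p Ω G

/-- A `C^∞` bijection of `Ω` onto `Λ` with `C^∞` inverse. -/
def IsDiffeo {n : ℕ} (Ω Λ : Set (Sp n)) (g : Sp n → Sp n) : Prop :=
  BijOn g Ω Λ ∧ ContDiffOn ℝ ∞ g Ω ∧ ∃ i : Sp n → Sp n, ContDiffOn ℝ ∞ i Λ ∧ InvOn i g Ω Λ

/-- `f` is a `W^{1,p}` limit of diffeomorphisms of `Ω` onto `Λ`, each in `W^{1,p}`. -/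
def DiffeoApproximable {n : ℕ} (p : ℝ) (Ω Λ : Set (Sp n)) (f : Sp n → Sp n) (G : Sp n → Mat n) :
    Prop :=
  ∃ g : ℕ → Sp n → Sp n, (∀ j, IsDiffeo Ω Λ (g j) ∧ InLp p Ω (g j) ∧ InLpMat p Ω (dgrad (g j))) ∧
    Filter.Tendsto (fun j => w1pErr p Ω f G (g j)) Filter.atTop (nhds 0)

/-- `f` agrees with diffeomorphisms of `Ω` onto `Λ` outside finitely many closed balls, whose
doubled closed balls are pairwise disjoint, contained in `Ω` and of arbitrarily small total volume. -/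
def AgreesOffSmallBalls {n : ℕ} (Ω Λ : Set (Sp n)) (f : Sp n → Sp n) : Prop :=
  ∀ η : ℝ, 0 < η → ∃ (m : ℕ) (c : Fin m → Sp n) (R : Fin m → ℝ) (F : Sp n → Sp n),
    (∀ i, 0 < R i) ∧ (∀ i, Metric.closedBall (c i) (R i) ⊆ Ω) ∧
    Pairwise (fun i j => Disjoint (Metric.closedBall (c i) (R i)) (Metric.closedBall (c j) (R j))) ∧
    volume (⋃ i, Metric.closedBall (c i) (R i)) ≤ ENNReal.ofReal η ∧
    IsDiffeo Ω Λ F ∧
    ∀ x ∈ Ω, (∀ i, x ∉ Metric.closedBall (c i) (R i / 2)) → F x = f x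

end Vale.Agent.P073.Balls
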