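import Vale.Agent.P073.Balls.Patch

/-!
Replacement theorem: for `p < n`, a `W^{1,p}` homeomorphism which agrees with diffeomorphisms
outside small balls is approximable by diffeomorphisms with the same target.
-/

namespace Vale.Agent.P073.Balls

open MeasureTheory Set Metric Filter
open scoped ENNReal ContDiff Topology

variable {n : ℕ}

/-- On an open subset where `f` coincides with a smooth map, the weak derivative is the classical
one, almost everywhere. -/
theorem weakDeriv_eq_fderiv {Ω V : Set (Sp n)} {f F : Sp n → Sp n}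
    {G : Sp n → Sp n →L[ℝ] Sp n} (hw : IsWeakDeriv Ω f G) (hG : LocallyIntegrableOn G V volume)
    (hV : IsOpen V) (hVΩ : V ⊆ Ω) (hF : ContDiffOn ℝ ∞ F V) (heq : EqOn F f V) :
    ∀ᵐ x, x ∈ V → G x = fderiv ℝ F x := by
  have hFc : ContinuousOn (fderiv ℝ F) V := hF.continuousOn_fderiv_of_isOpen hV (by simp)
  have key : ∀ k : Fin n, ∀ᵐ x, x ∈ V →
      (G x - fderiv ℝ F x) (EuclideanSpace.single k 1) = 0 := by
    intro k
    set v : Sp n := EuclideanSpace.single k 1
    have hli : LocallyIntegrableOn (fun x => (G x - fderiv ℝ F x) v) V volume := by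
      have h := hG.sub (hFc.locallyIntegrableOn hV.measurableSet)
      intro x hx
      obtain ⟨t, ht, hti⟩ := h x hx
      exact ⟨t, ht, (ContinuousLinearMap.apply ℝ (Sp n) v).integrable_comp hti⟩
    refine hV.ae_eq_zero_of_integral_contDiff_smul_eq_zero hli fun φ hφ hφc hφV => ?_
    have hFd : ∀ x ∈ tsupport φ, DifferentiableAt ℝ F x := fun x hx =>
      (hF.contDiffAt (hV.mem_nhds (hφV hx))).differentiableAt (by simp)
    have hK : IsCompact (tsupport φ) := hφc
    have hφ' : Continuous (fderiv ℝ φ) := hφ.continuous_fderiv (by simp)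
    have i1 : Integrable (fun x => φ x • fderiv ℝ F x v) := by
      refine (IntegrableOn.integrable_of_forall_notMem_eq_zero (s := tsupport φ) ?_ fun x hx => ?_)
      · exact ((hφ.continuous.continuousOn).smul
          ((hFc.mono hφV).clm_apply continuousOn_const)).integrableOn_compact hK
      · simp [image_eq_zero_of_notMem_tsupport hx]
    have i2 : Integrable (fun x => fderiv ℝ φ x v • F x) := by
      refine (IntegrableOn.integrable_of_forall_notMem_eq_zero (s := tsupport φ) ?_ fun x hx => ?_)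
      · exact (((hφ'.clm_apply continuous_const).continuousOn).smul
          (hF.continuousOn.mono hφV)).integrableOn_compact hK
      · simp [fderiv_of_notMem_tsupport (𝕜 := ℝ) hx]
    have i3 : Integrable (fun x => φ x • F x) := by
      refine (IntegrableOn.integrable_of_forall_notMem_eq_zero (s := tsupport φ) ?_ fun x hx => ?_)
      · exact ((hφ.continuous.continuousOn).smul (hF.continuousOn.mono hφV)).integrableOn_compact hK
      · simp [image_eq_zero_of_notMem_tsupport hx]
    have hparts := integral_smul_fderiv_eq_neg_fderiv_smul_of_integrable (μ := volume)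
      (f := φ) (g := F) (v := v) i2 i1 i3
      (fun x _ => (hφ.differentiable (by simp)).differentiableAt) hFd
    have hsame : ∫ x, fderiv ℝ φ x v • F x = ∫ x, fderiv ℝ φ x v • f x := by
      refine integral_congr_ae (Eventually.of_forall fun x => ?_)
      by_cases hx : x ∈ tsupport φ
      · simp only [heq (hφV hx)]
      · simp [fderiv_of_notMem_tsupport (𝕜 := ℝ) hx]
    have i4 : Integrable (fun x => φ x • G x v) := by
      have h : IntegrableOn (fun x => φ x • G x v) (tsupport φ) := by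
        have hGK : IntegrableOn G (tsupport φ) := hG.integrableOn_compact_subset hφV hK
        have hGv : IntegrableOn (fun x => G x v) (tsupport φ) :=
          (ContinuousLinearMap.apply ℝ (Sp n) v).integrable_comp hGK
        exact hGv.continuousOn_smul hφ.continuous.continuousOn hK
      exact h.integrable_of_forall_notMem_eq_zero fun x hx => by
        simp [image_eq_zero_of_notMem_tsupport hx]
    calc ∫ x, φ x • ((G x - fderiv ℝ F x) v)
        = ∫ x, (φ x • G x v - φ x • fderiv ℝ F x v) := by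
          simp only [sub_apply, smul_sub]
      _ = 0 := by
          rw [integral_sub i4 i1, hparts, hsame, hw φ hφ hφc (hφV.trans hVΩ) v, sub_self]
  filter_upwards [ae_all_iff.2 key] with x hx hxV
  have hb : (G x - fderiv ℝ F x : Sp n →ₗ[ℝ] Sp n) = 0 :=
    (EuclideanSpace.basisFun (Fin n) ℝ).toBasis.ext fun k => by simpa using hx k hxV
  exact sub_eq_zero.1 (ContinuousLinearMap.coe_injective hb)

theorem exists_approx (hn : 1 ≤ n) {p : ℝ} (hp : 1 ≤ p) (hpn : p < n) {Ω Λ : Set (Sp n)}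
    (hΩ : IsOpen Ω) (hΩb : Bornology.IsBounded Ω) (hΛb : Bornology.IsBounded Λ)
    {f : Sp n → Sp n} {G : Sp n → Sp n →L[ℝ] Sp n} (hf : IsSobolevHomeo Ω Λ p f G)
    (hA : AgreesOffSmallBalls Ω Λ f) {δ : ℝ≥0∞} (hδ : 0 < δ) :
    ∃ g : Sp n → Sp n, IsDiffeo Ω Λ g ∧ MemLp g (ENNReal.ofReal p) (volume.restrict Ω) ∧
      MemLp (fderiv ℝ g) (ENNReal.ofReal p) (volume.restrict Ω) ∧
      ∫⁻ x in Ω, (‖g x - f x‖ₑ ^ p + ‖fderiv ℝ g x - G x‖ₑ ^ p) ≤ δ := by
  have hp0 : 0 < p := by linarith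
  have hGmem : MemLp G (ENNReal.ofReal p) (volume.restrict Ω) := hf.memD
  have hq0 : ENNReal.ofReal p ≠ 0 := by simpa using hp0
  have hqt : ENNReal.ofReal p ≠ ⊤ := ENNReal.ofReal_ne_top
  have hqr : (ENNReal.ofReal p).toReal = p := ENNReal.toReal_ofReal hp0.le
  obtain ⟨C, hC0, hC⟩ := det_dphi_bound hn hpn
  obtain ⟨D, hD⟩ := hΛb.exists_norm_le
  have hIG : ∫⁻ x in Ω, ‖G x‖ₑ ^ p ≠ ⊤ := by
    have := lintegral_rpow_enorm_lt_top_of_eLpNorm_lt_top hq0 hqt hGmem.eLpNorm_lt_top
    rw [hqr] at this; exact this.ne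
  -- constants
  set A : ℝ≥0∞ := 2 ^ (p - 1) * (ENNReal.ofReal C + 1) with hA'
  set M : ℝ≥0∞ := (ENNReal.ofReal (2 * D)) ^ p with hM
  have hAt : A ≠ ⊤ := ENNReal.mul_ne_top (ENNReal.rpow_ne_top_of_nonneg (by linarith) (by simp))
    (by simp)
  have hMt : M ≠ ⊤ := ENNReal.rpow_ne_top_of_nonneg hp0.le ENNReal.ofReal_ne_top
  -- choice of the volume
  obtain ⟨δ', hδ', hsmall⟩ : ∃ δ' : ℝ≥0∞, 0 < δ' ∧ A * δ' ≤ δ / 3 := by
    refine ⟨δ / 3 / (A + 1), ENNReal.div_pos (by simpa using hδ.ne') (by simp [hAt]), ?_⟩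
    calc A * (δ / 3 / (A + 1)) ≤ (A + 1) * (δ / 3 / (A + 1)) := by gcongr; exact le_self_add
      _ ≤ δ / 3 := ENNReal.mul_div_le
  obtain ⟨η₁, hη₁, hη₁G⟩ := exists_pos_setLIntegral_lt_of_measure_lt hIG hδ'.ne'
  obtain ⟨η, hη, hηlt, hηM⟩ : ∃ η : ℝ, 0 < η ∧ ENNReal.ofReal η < η₁ ∧ M * ENNReal.ofReal η ≤ δ / 3 := by
    have hpos : 0 < min η₁ (δ / 3 / (M + 1)) :=
      lt_min hη₁ (ENNReal.div_pos (by simpa using hδ.ne') (by simp [hMt]))
    obtain ⟨e, he0, helt⟩ := exists_between hpos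
    have het : e ≠ ⊤ := ne_top_of_lt helt
    refine ⟨e.toReal, ENNReal.toReal_pos he0.ne' het, ?_, ?_⟩
    · rw [ENNReal.ofReal_toReal het]; exact helt.trans_le (min_le_left _ _)
    · rw [ENNReal.ofReal_toReal het]
      calc M * e ≤ (M + 1) * (δ / 3 / (M + 1)) :=
            mul_le_mul' le_self_add (helt.le.trans (min_le_right _ _))
        _ ≤ δ / 3 := ENNReal.mul_div_le
  obtain ⟨m, c, R, F, hR, hsub, hd, hvol, ⟨hFb, hFs, Fi, hFi, hFinv⟩, hFf⟩ := hA η hη
  set U : Set (Sp n) := ⋃ i, closedBall (c i) (R i) with hU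
  set H : Set (Sp n) := ⋃ i, closedBall (c i) (R i / 2) with hH
  have hUc : IsClosed U := isClosed_iUnion_of_finite fun i => isClosed_closedBall
  have hHc : IsClosed H := isClosed_iUnion_of_finite fun i => isClosed_closedBall
  have hHU : H ⊆ U := iUnion_mono fun i => closedBall_subset_closedBall (by linarith [hR i])
  have hUΩ : U ⊆ Ω := iUnion_subset hsub
  have hUm : MeasurableSet U := hUc.measurableSet
  have hFd : ContinuousOn (fderiv ℝ F) Ω := hFs.continuousOn_fderiv_of_isOpen hΩ (by simp)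
  -- the weak derivative away from the half balls
  set V : Set (Sp n) := Ω \ H with hVdef
  have hV : IsOpen V := hΩ.sdiff hHc
  have hGV : LocallyIntegrableOn G V volume := by
    haveI : IsFiniteMeasure (volume.restrict Ω) := isFiniteMeasure_restrict.2 hΩb.measure_lt_top.ne
    have : IntegrableOn G Ω volume :=
      hGmem.integrable (by simpa using ENNReal.ofReal_le_ofReal hp)
    exact (this.mono_set sdiff_subset).locallyIntegrableOn
  have hGF := weakDeriv_eq_fderiv hf.weak hGV hV sdiff_subset (hFs.mono sdiff_subset)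
    fun x hx => hFf x hx.1 fun i hi => hx.2 (mem_iUnion.2 ⟨i, hi⟩)
  -- the crude bound on the half balls
  obtain ⟨L, hL⟩ : ∃ L, ∀ x ∈ U, ‖fderiv ℝ F x‖ ≤ L :=
    (isCompact_iUnion fun i => isCompact_closedBall (c i) (R i)).exists_bound_of_continuousOn
      (hFd.mono hUΩ)
  set B : ℝ≥0∞ := 2 ^ (p - 1) * ((ENNReal.ofReal L) ^ p * volume U) with hB
  have hUt : volume U ≠ ⊤ := ne_top_of_le_ne_top ENNReal.ofReal_ne_top hvol
  have hBt : B ≠ ⊤ := ENNReal.mul_ne_top (ENNReal.rpow_ne_top_of_nonneg (by linarith) (by simp))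
    (ENNReal.mul_ne_top (ENNReal.rpow_ne_top_of_nonneg hp0.le (by simp)) hUt)
  obtain ⟨ε, hε, hε1, hεB⟩ : ∃ ε : ℝ, 0 < ε ∧ ε ≤ 1 ∧ ENNReal.ofReal ε * B ≤ δ / 3 := by
    have hpos : 0 < min 1 (δ / 3 / (B + 1)) :=
      lt_min one_pos (ENNReal.div_pos (by simpa using hδ.ne') (by simp [hBt]))
    obtain ⟨e, he0, helt⟩ := exists_between hpos
    have het : e ≠ ⊤ := ne_top_of_lt helt
    refine ⟨e.toReal, ENNReal.toReal_pos he0.ne' het, ?_, ?_⟩
    · exact ENNReal.toReal_le_of_le_ofReal zero_le_one (by simpa using helt.le.trans (min_le_left _ _))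
    · rw [ENNReal.ofReal_toReal het]
      calc e * B ≤ (δ / 3 / (B + 1)) * (B + 1) :=
            mul_le_mul' (helt.le.trans (min_le_right _ _)) le_self_add
        _ ≤ δ / 3 := by rw [mul_comm]; exact ENNReal.mul_div_le
  -- the approximant
  set α : ℝ := 1 / ((n:ℝ) - p) with hα'
  have hα : 0 ≤ α := by
    have : 0 < (n:ℝ) - p := by linarith
    positivity
  set T := multiHomeo hα hε hε1 hR hd with hT
  have hTs : ContDiff ℝ ∞ T.symm := contDiff_multiHomeo_symm hα hε hε1 hR hd
  have hTa : ∀ y, T y = multi α ε c R y := fun _ => rfl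
  have hout : ∀ x, x ∉ U → T.symm x = x := fun x hx => by
    rw [Homeomorph.symm_apply_eq, hTa, multi_of_notMem hR fun i => ?_]
    have : x ∉ closedBall (c i) (R i) := fun h => hx (mem_iUnion.2 ⟨i, h⟩)
    rw [mem_closedBall, dist_eq_norm, not_le] at this
    exact this.le
  have hin : ∀ i, ∀ x ∈ closedBall (c i) (R i), T.symm x ∈ closedBall (c i) (R i) := by
    intro i x hx
    rw [← multi_image_ball (α := α) (ε := ε) hR hd hα hε hε1 i] at hx
    obtain ⟨y, hy, rfl⟩ := hx
    rwa [← hTa, T.symm_apply_apply]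
  have hTΩ : ∀ x, x ∈ Ω ↔ T.symm x ∈ Ω := by
    intro x
    by_cases hx : x ∈ U
    · obtain ⟨i, hi⟩ := mem_iUnion.1 hx
      exact ⟨fun _ => hsub i (hin i x hi), fun _ => hsub i hi⟩
    · rw [hout x hx]
  set g : Sp n → Sp n := F ∘ T.symm with hg
  have hgd : IsDiffeo Ω Λ g := by
    refine ⟨⟨fun x hx => hFb.mapsTo ((hTΩ x).1 hx), fun x hx y hy h =>
      T.symm.injective (hFb.injOn ((hTΩ x).1 hx) ((hTΩ y).1 hy) h), fun z hz => ?_⟩,
      hFs.comp hTs.contDiffOn fun x hx => (hTΩ x).1 hx, T ∘ Fi,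
      (contDiff_multi hε hε1).comp_contDiffOn hFi, ?_, ?_⟩
    · obtain ⟨y, hy, rfl⟩ := hFb.surjOn hz
      exact ⟨T y, (hTΩ _).2 (by simpa using hy), by simp [hg]⟩
    · intro x hx
      simp only [hg, Function.comp_apply, hFinv.1 ((hTΩ x).1 hx), T.apply_symm_apply]
    · intro z hz
      simp only [hg, Function.comp_apply, T.symm_apply_apply, hFinv.2 hz]
  have hgm : AEStronglyMeasurable (fderiv ℝ g) (volume.restrict Ω) :=
    (hgd.2.1.continuousOn_fderiv_of_isOpen hΩ (by simp)).aestronglyMeasurable hΩ.measurableSet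
  -- energy in one ball
  have hball : ∀ i, ∫⁻ x in closedBall (c i) (R i), ‖fderiv ℝ g x‖ₑ ^ p ≤
      ENNReal.ofReal C * (∫⁻ x in closedBall (c i) (R i), ‖G x‖ₑ ^ p) +
        ENNReal.ofReal ε * ((ENNReal.ofReal L) ^ p * volume (closedBall (c i) (R i))) := by
    intro i
    set S := closedBall (c i) (R i) with hS
    have hcv := lintegral_image_eq_lintegral_abs_det_fderiv_mul volume measurableSet_closedBall
      (fun y (_ : y ∈ S) => (hasFDerivAt_multi (α := α) (c := c) (R := R) hε hε1 y).hasFDerivWithinAt)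
      (multi_bijective hα hε hε1 hR hd).1.injOn (fun x => ‖fderiv ℝ g x‖ₑ ^ p)
    rw [multi_image_ball hR hd hα hε hε1 i] at hcv
    rw [hcv]
    have hpt : ∀ᵐ y, y ∈ S → ENNReal.ofReal |(dmulti α ε c R y).det| *
        ‖fderiv ℝ g (multi α ε c R y)‖ₑ ^ p ≤
        ENNReal.ofReal C * ‖G y‖ₑ ^ p + ENNReal.ofReal ε * (ENNReal.ofReal L) ^ p := by
      have hnull : ∀ᵐ y, y ∉ sphere (c i) (R i / 2) := by
        exact measure_eq_zero_iff_ae_notMem.1 (Measure.addHaar_sphere_of_ne_zero _ _ (by linarith [hR i]))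
      filter_upwards [hGF, hnull] with y hy hysph hyS
      have hyR : ‖y - c i‖ ≤ R i := by rwa [hS, mem_closedBall, dist_eq_norm] at hyS
      have hyΩ : y ∈ Ω := hsub i hyS
      set u := uf α ε (R i) (‖y - c i‖ ^ 2) with hu'
      have hu : 0 < u := uf_pos hε hε1 _
      rw [dmulti_of_mem hR hd hyS]
      have hchain : fderiv ℝ g (multi α ε c R y) ∘L dphi α ε (R i) (c i) y = fderiv ℝ F y := by
        have hgy : DifferentiableAt ℝ g (multi α ε c R y) := by
          refine (hgd.2.1.contDiffAt (hΩ.mem_nhds ((hTΩ _).2 ?_))).differentiableAt (by simp)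
          rwa [← hTa, T.symm_apply_apply]
        have h1 := hgy.hasFDerivAt.comp y (hasFDerivAt_multi (α := α) (c := c) (R := R) hε hε1 y)
        have h2 : g ∘ multi α ε c R = F := by
          funext z; simp [hg, ← hTa]
        rw [h2, dmulti_of_mem hR hd hyS] at h1
        exact h1.fderiv.symm
      have hnorm : ‖fderiv ℝ g (multi α ε c R y)‖ ≤ ‖fderiv ℝ F y‖ / u := by
        refine ContinuousLinearMap.opNorm_le_bound _ (by positivity) fun z => ?_
        obtain ⟨w, hw⟩ := (dmultiEquiv hα hε hε1 hR hd y).surjective z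
        have hw' : dphi α ε (R i) (c i) y w = z := by
          rw [← hw, ← dmulti_of_mem hR hd hyS]; rfl
        have h1 : fderiv ℝ g (multi α ε c R y) z = fderiv ℝ F y w := by
          rw [← hchain, ← hw']; rfl
        have h2 := dphi_antilipschitz (R := R i) hα hε hε1 (c i) y w
        rw [hw'] at h2
        rw [h1, div_mul_eq_mul_div, le_div_iff₀ hu]
        calc ‖fderiv ℝ F y w‖ * u ≤ (‖fderiv ℝ F y‖ * ‖w‖) * u :=
              mul_le_mul_of_nonneg_right (ContinuousLinearMap.le_opNorm _ _) hu.le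
          _ = ‖fderiv ℝ F y‖ * (u * ‖w‖) := by ring
          _ ≤ ‖fderiv ℝ F y‖ * ‖z‖ := mul_le_mul_of_nonneg_left h2 (norm_nonneg _)
      obtain ⟨hb1, hb2⟩ := hC ε (R i) hε hε1 (hR i) (c i) y hyR
      have hr : |(dphi α ε (R i) (c i) y).det| * ‖fderiv ℝ g (multi α ε c R y)‖ ^ p ≤
          |(dphi α ε (R i) (c i) y).det| / u ^ p * ‖fderiv ℝ F y‖ ^ p := by
        calc _ ≤ |(dphi α ε (R i) (c i) y).det| * (‖fderiv ℝ F y‖ / u) ^ p := by
              gcongr
          _ = _ := by rw [Real.div_rpow (norm_nonneg _) hu.le]; ring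
      rw [← ofReal_norm, ← ofReal_norm, ENNReal.ofReal_rpow_of_nonneg (norm_nonneg _) hp0.le,
        ENNReal.ofReal_rpow_of_nonneg (norm_nonneg _) hp0.le,
        ← ENNReal.ofReal_mul (abs_nonneg _)]
      rcases lt_trichotomy ‖y - c i‖ (R i / 2) with hlt | heq | hgt
      · calc ENNReal.ofReal _ ≤ ENNReal.ofReal (ε * L ^ p) := by
              refine ENNReal.ofReal_le_ofReal (hr.trans ?_)
              exact mul_le_mul (hb2 hlt)
                (Real.rpow_le_rpow (norm_nonneg _) (hL y (mem_iUnion.2 ⟨i, hyS⟩)) hp0.le)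
                (by positivity) hε.le
          _ = ENNReal.ofReal ε * (ENNReal.ofReal L) ^ p := by
              rw [ENNReal.ofReal_mul hε.le, ENNReal.ofReal_rpow_of_nonneg
                ((norm_nonneg _).trans (hL y (mem_iUnion.2 ⟨i, hyS⟩))) hp0.le]
          _ ≤ _ := le_add_self
      · exact absurd (by simpa [dist_eq_norm] using heq) hysph
      · have hyV : y ∈ V := by
          refine ⟨hyΩ, fun hyH => ?_⟩
          obtain ⟨j, hj⟩ := mem_iUnion.1 hyH
          rcases eq_or_ne j i with rfl | hne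
          · rw [mem_closedBall, dist_eq_norm] at hj; linarith
          · exact Set.disjoint_left.1 (hd hne)
              (closedBall_subset_closedBall (by linarith [hR j]) hj) hyS
        rw [hy hyV, ← ENNReal.ofReal_mul hC0.le]
        exact (ENNReal.ofReal_le_ofReal (hr.trans
          (mul_le_mul_of_nonneg_right hb1 (by positivity)))).trans le_self_add
    calc _ ≤ ∫⁻ y in S, (ENNReal.ofReal C * ‖G y‖ₑ ^ p + ENNReal.ofReal ε * (ENNReal.ofReal L) ^ p) :=
          lintegral_mono_ae ((ae_restrict_iff' measurableSet_closedBall).2 hpt)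
      _ = _ := by
          rw [lintegral_add_right _ measurable_const, lintegral_const_mul' _ _ ENNReal.ofReal_ne_top,
            setLIntegral_const]
          ring
  -- energy of the error
  have hgB : ∀ x ∈ Ω, ‖g x‖ ≤ D := fun x hx => hD _ (hgd.1.mapsTo hx)
  have herr : ∀ᵐ x ∂volume.restrict Ω, ‖g x - f x‖ₑ ^ p + ‖fderiv ℝ g x - G x‖ₑ ^ p ≤
      U.indicator (fun x => M + 2 ^ (p - 1) * (‖fderiv ℝ g x‖ₑ ^ p + ‖G x‖ₑ ^ p)) x := by
    refine (ae_restrict_iff' hΩ.measurableSet).2 ?_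
    filter_upwards [hGF] with x hx hxΩ
    by_cases hxU : x ∈ U
    · rw [indicator_of_mem hxU]
      refine add_le_add ?_ ?_
      · refine ENNReal.rpow_le_rpow ?_ hp0.le
        rw [← ofReal_norm]
        refine ENNReal.ofReal_le_ofReal ((norm_sub_le _ _).trans ?_)
        linarith [hgB x hxΩ, hD _ (hf.bij.mapsTo hxΩ)]
      · exact (ENNReal.rpow_le_rpow enorm_sub_le hp0.le).trans
          (ENNReal.rpow_add_le_mul_rpow_add_rpow _ _ hp)
    · rw [indicator_of_notMem hxU]
      have hxH : x ∉ H := fun h => hxU (hHU h)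
      have hev : g =ᶠ[𝓝 x] F := by
        filter_upwards [hUc.isOpen_compl.mem_nhds hxU] with z hz
        simp [hg, hout z hz]
      have h1 : g x = f x := by
        rw [hev.eq_of_nhds]
        exact hFf x hxΩ fun i hi => hxH (mem_iUnion.2 ⟨i, hi⟩)
      rw [h1, hev.fderiv_eq, hx ⟨hxΩ, hxH⟩]
      rw [sub_self, sub_self, ← ofReal_norm, ← ofReal_norm, norm_zero, norm_zero, ENNReal.ofReal_zero,
        ENNReal.zero_rpow_of_pos hp0, add_zero]
  have hdj : Pairwise (Function.onFun Disjoint fun i => closedBall (c i) (R i)) := hd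
  have hUb : ∫⁻ x in U, ‖fderiv ℝ g x‖ₑ ^ p ≤
      ENNReal.ofReal C * (∫⁻ x in U, ‖G x‖ₑ ^ p) + ENNReal.ofReal ε * ((ENNReal.ofReal L) ^ p * volume U) := by
    rw [hU, lintegral_iUnion (fun i => measurableSet_closedBall) hdj,
      lintegral_iUnion (fun i => measurableSet_closedBall) hdj,
      measure_iUnion hdj (fun i => measurableSet_closedBall), tsum_fintype, tsum_fintype,
      tsum_fintype, Finset.mul_sum, Finset.mul_sum, Finset.mul_sum, ← Finset.sum_add_distrib]
    exact Finset.sum_le_sum fun i _ => hball i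
  have hGU : ∫⁻ x in U, ‖G x‖ₑ ^ p ≤ δ' := by
    have h1 : (volume.restrict Ω) U < η₁ := by
      rw [Measure.restrict_apply hUm, inter_eq_left.2 hUΩ]; exact hvol.trans_lt hηlt
    have h2 := (hη₁G U h1).le
    rwa [Measure.restrict_restrict hUm, inter_eq_left.2 hUΩ] at h2
  have hfinal : ∫⁻ x in Ω, (‖g x - f x‖ₑ ^ p + ‖fderiv ℝ g x - G x‖ₑ ^ p) ≤ δ := by
    refine (lintegral_mono_ae herr).trans ?_
    rw [setLIntegral_indicator hUm, inter_eq_left.2 hUΩ,
      lintegral_add_left measurable_const, setLIntegral_const,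
      lintegral_const_mul' _ _ (ENNReal.rpow_ne_top_of_nonneg (by linarith) (by simp))]
    have hGae : AEMeasurable (fun x => ‖G x‖ₑ ^ p) (volume.restrict U) :=
      (hGmem.aestronglyMeasurable.mono_measure (Measure.restrict_mono_set _ hUΩ)).enorm.pow_const p
    rw [lintegral_add_right' _ hGae]
    calc M * volume U + 2 ^ (p - 1) * ((∫⁻ x in U, ‖fderiv ℝ g x‖ₑ ^ p) + ∫⁻ x in U, ‖G x‖ₑ ^ p)
        ≤ M * ENNReal.ofReal η + 2 ^ (p - 1) *
            ((ENNReal.ofReal C * δ' + ENNReal.ofReal ε * ((ENNReal.ofReal L) ^ p * volume U)) + δ') := by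
          gcongr
          exact hUb.trans (by gcongr)
      _ = M * ENNReal.ofReal η + A * δ' + ENNReal.ofReal ε * B := by rw [hA', hB]; ring
      _ ≤ δ / 3 + δ / 3 + δ / 3 := by gcongr
      _ = δ := ENNReal.add_thirds δ
  refine ⟨g, hgd, ?_, ?_, hfinal⟩
  · haveI : IsFiniteMeasure (volume.restrict Ω) := isFiniteMeasure_restrict.2 hΩb.measure_lt_top.ne
    exact MemLp.of_bound (hgd.2.1.continuousOn.aestronglyMeasurable hΩ.measurableSet) D
      ((ae_restrict_iff' hΩ.measurableSet).2 (Eventually.of_forall hgB))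
  · refine ⟨hgm, ?_⟩
    rw [eLpNorm_lt_top_iff_lintegral_rpow_enorm_lt_top hq0 hqt, hqr]
    have hUfin : ∫⁻ x in U, ‖fderiv ℝ g x‖ₑ ^ p < ⊤ :=
      lt_of_le_of_lt hUb (ENNReal.add_lt_top.2 ⟨ENNReal.mul_lt_top ENNReal.ofReal_lt_top
        (lt_top_iff_ne_top.2 (ne_top_of_le_ne_top hIG (lintegral_mono_set hUΩ))),
        ENNReal.mul_lt_top ENNReal.ofReal_lt_top (lt_top_iff_ne_top.2
          (ENNReal.mul_ne_top (ENNReal.rpow_ne_top_of_nonneg hp0.le (by simp)) hUt))⟩)
    calc ∫⁻ x in Ω, ‖fderiv ℝ g x‖ₑ ^ p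
        ≤ ∫⁻ x in Ω, (‖G x‖ₑ ^ p + U.indicator (fun x => ‖fderiv ℝ g x‖ₑ ^ p) x) := by
          refine lintegral_mono_ae ((ae_restrict_iff' hΩ.measurableSet).2 ?_)
          filter_upwards [hGF] with x hx hxΩ
          by_cases hxU : x ∈ U
          · rw [indicator_of_mem hxU]; exact le_add_self
          · have hev : g =ᶠ[𝓝 x] F := by
              filter_upwards [hUc.isOpen_compl.mem_nhds hxU] with z hz
              simp [hg, hout z hz]
            rw [indicator_of_notMem hxU, hev.fderiv_eq, hx ⟨hxΩ, fun h => hxU (hHU h)⟩, add_zero]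
      _ < ⊤ := by
          rw [lintegral_add_left' (hGmem.aestronglyMeasurable.enorm.pow_const p),
            setLIntegral_indicator hUm, inter_eq_left.2 hUΩ]
          exact ENNReal.add_lt_top.2 ⟨lt_top_iff_ne_top.2 hIG, hUfin⟩

end Vale.Agent.P073.Balls
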