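import Vale.Agent.P073.Balls.Radial

/-!
Simultaneous radial maps in finitely many disjoint balls, and replacement of a map inside them.
-/

namespace Vale.Agent.P073.Balls

open MeasureTheory Set Metric Filter
open scoped ENNReal ContDiff Topology

variable {n m : ℕ}

/-- All the radial maps at once. -/
noncomputable def multi (α ε : ℝ) (c : Fin m → Sp n) (R : Fin m → ℝ) (y : Sp n) : Sp n :=
  y + ∑ i, (phi α ε (R i) (c i) y - y)

theorem multi_of_mem {α ε : ℝ} {c : Fin m → Sp n} {R : Fin m → ℝ} (hR : ∀ i, 0 < R i)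
    (hd : Pairwise (fun i j => Disjoint (closedBall (c i) (R i)) (closedBall (c j) (R j))))
    {i : Fin m} {y : Sp n} (hy : y ∈ closedBall (c i) (R i)) :
    multi α ε c R y = phi α ε (R i) (c i) y := by
  unfold multi
  rw [Finset.sum_eq_single i]
  · abel
  · intro j _ hj
    have : y ∉ closedBall (c j) (R j) := fun h => Set.disjoint_left.1 (hd hj) h hy
    rw [mem_closedBall, dist_eq_norm, not_le] at this
    rw [phi_outer (hR j) this.le, sub_self]
  · simp

theorem multi_of_notMem {α ε : ℝ} {c : Fin m → Sp n} {R : Fin m → ℝ} (hR : ∀ i, 0 < R i)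
    {y : Sp n} (hy : ∀ i, R i ≤ ‖y - c i‖) : multi α ε c R y = y := by
  unfold multi
  rw [Finset.sum_eq_zero fun j _ => by rw [phi_outer (hR j) (hy j), sub_self], add_zero]

theorem phi_mapsTo {α ε R : ℝ} (hα : 0 ≤ α) (hε : 0 < ε) (hε1 : ε ≤ 1) {c y : Sp n}
    (hy : y ∈ closedBall c R) : phi α ε R c y ∈ closedBall c R := by
  rw [mem_closedBall, dist_eq_norm] at hy ⊢
  simp only [phi, add_sub_cancel_left, norm_smul, Real.norm_of_nonneg (uf_pos hε hε1 _).le]
  have : uf α ε R (‖y - c‖ ^ 2) ≤ 1 :=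
    Real.rpow_le_one (wf_pos hε hε1 _ _).le (wf_le_one hε1 _ _) hα
  calc uf α ε R (‖y - c‖ ^ 2) * ‖y - c‖ ≤ 1 * ‖y - c‖ :=
        mul_le_mul_of_nonneg_right this (norm_nonneg _)
    _ ≤ R := by simpa using hy

section

variable {α ε : ℝ} (hα : 0 ≤ α) (hε : 0 < ε) (hε1 : ε ≤ 1) {c : Fin m → Sp n} {R : Fin m → ℝ}
  (hR : ∀ i, 0 < R i)
  (hd : Pairwise (fun i j => Disjoint (closedBall (c i) (R i)) (closedBall (c j) (R j))))

include hR hd in
theorem multi_cases (y : Sp n) :
    (∃ i, y ∈ closedBall (c i) (R i) ∧ multi α ε c R y = phi α ε (R i) (c i) y) ∨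
    ((∀ i, y ∉ closedBall (c i) (R i)) ∧ multi α ε c R y = y) := by
  by_cases h : ∃ i, y ∈ closedBall (c i) (R i)
  · obtain ⟨i, hi⟩ := h
    exact Or.inl ⟨i, hi, multi_of_mem hR hd hi⟩
  · push_neg at h
    refine Or.inr ⟨h, multi_of_notMem hR fun i => ?_⟩
    have := h i
    rw [mem_closedBall, dist_eq_norm, not_le] at this
    exact this.le

include hα hε hε1 hR hd in
theorem multi_bijective : Function.Bijective (multi α ε c R) := by
  constructor
  · intro x y hxy
    rcases multi_cases (α := α) (ε := ε) hR hd x with ⟨i, hi, ex⟩ | ⟨hi, ex⟩ <;>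
      rcases multi_cases (α := α) (ε := ε) hR hd y with ⟨j, hj, ey⟩ | ⟨hj, ey⟩ <;>
      rw [ex, ey] at hxy
    · have hij : i = j := by
        by_contra hne
        exact Set.disjoint_left.1 (hd hne) (phi_mapsTo hα hε hε1 hi)
          (hxy ▸ phi_mapsTo hα hε hε1 hj)
      subst hij
      exact (phi_bijective hα hε hε1 (hR i) (c i)).1 hxy
    · exact absurd (hxy ▸ phi_mapsTo hα hε hε1 hi) (hj i)
    · exact absurd (hxy ▸ phi_mapsTo hα hε hε1 hj) (hi j)
    · exact hxy
  · intro x
    by_cases h : ∃ i, x ∈ closedBall (c i) (R i)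
    · obtain ⟨i, hi⟩ := h
      obtain ⟨y, hy⟩ := (phi_bijective (α := α) hα hε hε1 (hR i) (c i)).2 x
      have hyB : y ∈ closedBall (c i) (R i) := by
        by_contra hn
        rw [mem_closedBall, dist_eq_norm, not_le] at hn
        rw [phi_outer (hR i) hn.le] at hy
        rw [mem_closedBall, dist_eq_norm, ← hy] at hi
        linarith
      exact ⟨y, by rw [multi_of_mem hR hd hyB, hy]⟩
    · push_neg at h
      refine ⟨x, multi_of_notMem hR fun i => ?_⟩
      have := h i
      rw [mem_closedBall, dist_eq_norm, not_le] at this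
      exact this.le

include hR hd in
theorem multi_image_ball (hα : 0 ≤ α) (hε : 0 < ε) (hε1 : ε ≤ 1) (i : Fin m) :
    multi α ε c R '' closedBall (c i) (R i) = closedBall (c i) (R i) := by
  apply Subset.antisymm
  · rintro _ ⟨y, hy, rfl⟩
    rw [multi_of_mem hR hd hy]; exact phi_mapsTo hα hε hε1 hy
  · intro x hx
    obtain ⟨y, hy⟩ := (multi_bijective hα hε hε1 hR hd).2 x
    rcases multi_cases (α := α) (ε := ε) hR hd y with ⟨j, hj, ey⟩ | ⟨hj, ey⟩
    · have hij : j = i := by
        by_contra hne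
        rw [ey] at hy
        exact Set.disjoint_left.1 (hd hne) (hy ▸ phi_mapsTo hα hε hε1 hj) hx
      subst hij
      exact ⟨y, hj, hy⟩
    · rw [ey] at hy; subst hy; exact absurd hx (hj i)

/-- The derivative of `multi`. -/
noncomputable def dmulti (α ε : ℝ) (c : Fin m → Sp n) (R : Fin m → ℝ) (y : Sp n) :
    Sp n →L[ℝ] Sp n :=
  ContinuousLinearMap.id ℝ (Sp n) + ∑ i, (dphi α ε (R i) (c i) y - ContinuousLinearMap.id ℝ (Sp n))

include hε hε1 in
theorem hasFDerivAt_multi (y : Sp n) :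
    HasFDerivAt (multi α ε c R) (dmulti α ε c R y) y := by
  have h := (hasFDerivAt_id (𝕜 := ℝ) y).add (HasFDerivAt.fun_sum (u := Finset.univ)
    fun i (_ : i ∈ Finset.univ) => (hasFDerivAt_phi (α := α) (R := R i) hε hε1 (c i) y).sub
      (hasFDerivAt_id y))
  exact h

theorem dphi_outer {R : ℝ} (hR : 0 < R) {c y : Sp n} (h : R ≤ ‖y - c‖) :
    dphi α ε R c y = ContinuousLinearMap.id ℝ (Sp n) := by
  have hs : R ^ 2 ≤ ‖y - c‖ ^ 2 := pow_le_pow_left₀ hR.le h 2
  have hq : deriv Real.smoothTransition ((‖y - c‖ ^ 2 - R ^ 2 / 4) / (3 * R ^ 2 / 4)) = 0 := by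
    set z := (‖y - c‖ ^ 2 - R ^ 2 / 4) / (3 * R ^ 2 / 4)
    have hz : 1 ≤ z := by rw [one_le_div (by positivity)]; linarith
    have hmax : IsLocalMax Real.smoothTransition z :=
      Eventually.of_forall fun w => by
        rw [Real.smoothTransition.one_of_one_le hz]; exact Real.smoothTransition.le_one w
    exact hmax.deriv_eq_zero
  ext x i
  simp [dphi, rankOne_apply, uf_outer hR hs, uf', hq]

include hR hd in
theorem dmulti_of_mem {i : Fin m} {y : Sp n} (hy : y ∈ closedBall (c i) (R i)) :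
    dmulti α ε c R y = dphi α ε (R i) (c i) y := by
  unfold dmulti
  rw [Finset.sum_eq_single i]
  · abel
  · intro j _ hj
    have : y ∉ closedBall (c j) (R j) := fun h => Set.disjoint_left.1 (hd hj) h hy
    rw [mem_closedBall, dist_eq_norm, not_le] at this
    rw [dphi_outer (hR j) this.le, sub_self]
  · simp

theorem dphi_antilipschitz {R : ℝ} (hα : 0 ≤ α) (hε : 0 < ε) (hε1 : ε ≤ 1) (c y x : Sp n) :
    uf α ε R (‖y - c‖ ^ 2) * ‖x‖ ≤ ‖dphi α ε R c y x‖ :=
  norm_rankOne_ge (mul_nonneg zero_le_two (uf'_nonneg hα hε hε1 _)) _ _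

include hα hε hε1 hR hd in
theorem dmulti_injective (y : Sp n) : Function.Injective (dmulti α ε c R y) := by
  rw [injective_iff_map_eq_zero]
  intro x hx
  by_cases h : ∃ i, y ∈ closedBall (c i) (R i)
  · obtain ⟨i, hi⟩ := h
    rw [dmulti_of_mem hR hd hi] at hx
    have := dphi_antilipschitz (R := R i) hα hε hε1 (c i) y x
    rw [hx, norm_zero] at this
    exact norm_le_zero_iff.1 (by nlinarith [uf_pos (α := α) (R := R i) hε hε1 (‖y - c i‖ ^ 2), norm_nonneg x])
  · push_neg at h
    have hd0 : dmulti α ε c R y = ContinuousLinearMap.id ℝ (Sp n) := by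
      unfold dmulti
      rw [Finset.sum_eq_zero fun j _ => ?_, add_zero]
      have := h j
      rw [mem_closedBall, dist_eq_norm, not_le] at this
      rw [dphi_outer (hR j) this.le, sub_self]
    simpa [hd0] using hx

/-- The derivative as an equivalence. -/
noncomputable def dmultiEquiv (y : Sp n) : Sp n ≃L[ℝ] Sp n :=
  (LinearEquiv.ofInjectiveEndo (dmulti α ε c R y : Sp n →ₗ[ℝ] Sp n)
    (dmulti_injective hα hε hε1 hR hd y)).toContinuousLinearEquiv

theorem dmultiEquiv_coe (y : Sp n) :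
    (dmultiEquiv hα hε hε1 hR hd y : Sp n →L[ℝ] Sp n) = dmulti α ε c R y := by
  ext x; rfl

include hε hε1 in
theorem contDiff_multi : ContDiff ℝ ∞ (multi α ε c R) :=
  contDiff_id.add (ContDiff.sum fun i _ => (contDiff_phi hε hε1 (c i)).sub contDiff_id)

/-- `multi` as a homeomorphism. -/
noncomputable def multiHomeo : Sp n ≃ₜ Sp n :=
  (Equiv.ofBijective _ (multi_bijective hα hε hε1 hR hd)).toHomeomorphOfContinuousOpen
    (contDiff_multi hε hε1).continuous
    (isOpenMap_of_hasStrictFDerivAt_equiv (f' := dmultiEquiv hα hε hε1 hR hd) fun y => by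
      have h := (contDiff_multi (α := α) (c := c) (R := R) hε hε1).contDiffAt.hasStrictFDerivAt'
        (hasFDerivAt_multi hε hε1 y) (by simp)
      rw [← dmultiEquiv_coe hα hε hε1 hR hd y] at h
      exact h)

theorem contDiff_multiHomeo_symm : ContDiff ℝ ∞ (multiHomeo hα hε hε1 hR hd).symm := by
  refine (multiHomeo hα hε hε1 hR hd).contDiff_symm (f₀' := dmultiEquiv hα hε hε1 hR hd)
    (fun y => ?_) (contDiff_multi hε hε1)
  rw [dmultiEquiv_coe]
  exact hasFDerivAt_multi hε hε1 y

end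

end Vale.Agent.P073.Balls
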