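import Vale.Agent.P073.Balls.Defs

/-!
Radial diffeomorphisms of a ball which contract the half ball by a small factor, with the estimate
`|det Dφ| ‖(Dφ)⁻¹‖^p ≤ C` for `p < n`.
-/

namespace Vale.Agent.P073.Balls

open MeasureTheory Set Metric Filter Matrix
open scoped ENNReal ContDiff Topology RealInnerProductSpace

variable {n : ℕ}

/-- The operator `a • id + b • (v ⊗ v)`. -/
noncomputable def rankOne (a b : ℝ) (v : Sp n) : Sp n →L[ℝ] Sp n :=
  a • ContinuousLinearMap.id ℝ (Sp n) + b • (innerSL ℝ v).smulRight v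

theorem rankOne_apply (a b : ℝ) (v x : Sp n) : rankOne a b v x = a • x + (b * ⟪v, x⟫) • v := by
  simp [rankOne, smul_smul]

theorem inner_rankOne (a b : ℝ) (v x : Sp n) :
    ⟪x, rankOne a b v x⟫ = a * ‖x‖ ^ 2 + b * ⟪v, x⟫ ^ 2 := by
  rw [rankOne_apply, inner_add_right, real_inner_smul_right, real_inner_smul_right,
    real_inner_self_eq_norm_sq, real_inner_comm x v]
  ring

theorem norm_rankOne_ge {a b : ℝ} (hb : 0 ≤ b) (v x : Sp n) :
    a * ‖x‖ ≤ ‖rankOne a b v x‖ := by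
  rcases eq_or_lt_of_le (norm_nonneg x) with hx | hx
  · rw [← hx, mul_zero]; exact norm_nonneg _
  · have h1 := real_inner_le_norm x (rankOne a b v x)
    rw [inner_rankOne] at h1
    have h2 : 0 ≤ b * ⟪v, x⟫ ^ 2 := by positivity
    nlinarith

theorem det_rankOne (hn : 1 ≤ n) {a : ℝ} (ha : a ≠ 0) (b : ℝ) (v : Sp n) :
    (rankOne a b v).det = a ^ (n - 1) * (a + b * ‖v‖ ^ 2) := by
  classical
  let B := (EuclideanSpace.basisFun (Fin n) ℝ).toBasis
  have hM : LinearMap.toMatrix B B (rankOne a b v : Sp n →ₗ[ℝ] Sp n) =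
      a • ((1 : Matrix (Fin n) (Fin n) ℝ) +
        replicateCol Unit (fun i => b / a * v i) * replicateRow Unit (fun j => v j)) := by
    ext i j
    simp [B, LinearMap.toMatrix_apply, rankOne_apply, Matrix.mul_apply, Matrix.one_apply,
      EuclideanSpace.inner_single_right]
    split_ifs <;> field_simp <;> ring
  have hv : ‖v‖ ^ 2 = ∑ i, v i * v i := by
    rw [EuclideanSpace.real_norm_sq_eq]; simp [pow_two]
  rw [ContinuousLinearMap.det, ← LinearMap.det_toMatrix B, hM, Matrix.det_smul,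
    det_one_add_replicateCol_mul_replicateRow, Fintype.card_fin]
  have hdot : (fun j => v j) ⬝ᵥ (fun i => b / a * v i) = b / a * ‖v‖ ^ 2 := by
    rw [hv, dotProduct, Finset.mul_sum]; exact Finset.sum_congr rfl fun i _ => by ring
  rw [hdot]
  obtain ⟨k, rfl⟩ : ∃ k, n = k + 1 := ⟨n - 1, by omega⟩
  rw [Nat.add_sub_cancel, pow_succ]
  field_simp

/-- The cutoff: `0` up to `(R/2)^2`, `1` from `R^2` on. -/
noncomputable def cut (R τ : ℝ) : ℝ := Real.smoothTransition ((τ - R ^ 2 / 4) / (3 * R ^ 2 / 4))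

/-- `w = ε + (1 - ε) * cut`. -/
noncomputable def wf (ε R τ : ℝ) : ℝ := ε + (1 - ε) * cut R τ

/-- The radial factor as a function of the squared radius. -/
noncomputable def uf (α ε R τ : ℝ) : ℝ := wf ε R τ ^ α

theorem wf_pos {ε : ℝ} (hε : 0 < ε) (hε1 : ε ≤ 1) (R τ : ℝ) : 0 < wf ε R τ := by
  have := Real.smoothTransition.nonneg ((τ - R ^ 2 / 4) / (3 * R ^ 2 / 4))
  have : 0 ≤ (1 - ε) * cut R τ := mul_nonneg (by linarith) this
  unfold wf; linarith

theorem wf_ge {ε : ℝ} (hε1 : ε ≤ 1) (R τ : ℝ) : ε ≤ wf ε R τ := by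
  have h : 0 ≤ cut R τ := Real.smoothTransition.nonneg _
  have : 0 ≤ (1 - ε) * cut R τ := mul_nonneg (by linarith) h
  unfold wf; linarith

theorem wf_le_one {ε : ℝ} (hε1 : ε ≤ 1) (R τ : ℝ) : wf ε R τ ≤ 1 := by
  have h : cut R τ ≤ 1 := Real.smoothTransition.le_one _
  have : (1 - ε) * cut R τ ≤ (1 - ε) * 1 := mul_le_mul_of_nonneg_left h (by linarith)
  unfold wf; linarith

theorem cut_inner {R τ : ℝ} (h : τ ≤ R ^ 2 / 4) : cut R τ = 0 := by
  apply Real.smoothTransition.zero_of_nonpos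
  apply div_nonpos_of_nonpos_of_nonneg <;> nlinarith [sq_nonneg R]

theorem cut_outer {R τ : ℝ} (hR : 0 < R) (h : R ^ 2 ≤ τ) : cut R τ = 1 := by
  apply Real.smoothTransition.one_of_one_le
  rw [one_le_div (by positivity)]; linarith

theorem uf_outer {α ε R τ : ℝ} (hR : 0 < R) (h : R ^ 2 ≤ τ) : uf α ε R τ = 1 := by
  simp [uf, wf, cut_outer hR h]

theorem contDiff_uf {α ε R : ℝ} (hε : 0 < ε) (hε1 : ε ≤ 1) :
    ContDiff ℝ ∞ (uf α ε R) := by
  have h : ContDiff ℝ ∞ (wf ε R) := by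
    unfold wf cut
    fun_prop
  exact h.rpow_const_of_ne fun τ => (wf_pos hε hε1 R τ).ne'

theorem exists_deriv_bound :
    ∃ K : ℝ, 0 ≤ K ∧ ∀ x, deriv Real.smoothTransition x ≤ K := by
  have hc : Continuous (deriv Real.smoothTransition) :=
    (Real.smoothTransition.contDiff (n := 1)).continuous_deriv le_rfl
  obtain ⟨K, hK⟩ := (isCompact_Icc (a := (0:ℝ)) (b := 1)).exists_bound_of_continuousOn hc.continuousOn
  refine ⟨max K 0, le_max_right _ _, fun x => ?_⟩
  rcases lt_trichotomy x 0 with hx | hx | hx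
  · have : Real.smoothTransition =ᶠ[𝓝 x] fun _ => (0:ℝ) :=
      eventually_of_mem (Iio_mem_nhds hx) fun y hy => Real.smoothTransition.zero_of_nonpos (le_of_lt hy)
    rw [this.deriv_eq, deriv_const]; exact le_max_right _ _
  · have := hK x (by subst hx; exact ⟨le_rfl, zero_le_one⟩)
    exact le_max_of_le_left ((le_abs_self _).trans this)
  · rcases le_or_gt x 1 with h1 | h1
    · have := hK x ⟨hx.le, h1⟩
      exact le_max_of_le_left ((le_abs_self _).trans this)
    · have : Real.smoothTransition =ᶠ[𝓝 x] fun _ => (1:ℝ) :=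
        eventually_of_mem (Ioi_mem_nhds h1) fun y hy => Real.smoothTransition.one_of_one_le (le_of_lt hy)
      rw [this.deriv_eq, deriv_const]; exact le_max_right _ _

theorem hasDerivAt_cut (R τ : ℝ) :
    HasDerivAt (cut R)
      (deriv Real.smoothTransition ((τ - R ^ 2 / 4) / (3 * R ^ 2 / 4)) / (3 * R ^ 2 / 4)) τ := by
  have h1 : HasDerivAt Real.smoothTransition _ ((τ - R ^ 2 / 4) / (3 * R ^ 2 / 4)) :=
    (((Real.smoothTransition.contDiff (n := 1))).differentiable one_ne_zero).differentiableAt.hasDerivAt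
  have h2 := ((hasDerivAt_id τ).sub_const (R ^ 2 / 4)).div_const (3 * R ^ 2 / 4)
  have h3 := h1.comp τ h2
  exact h3.congr_deriv (by ring)

/-- The derivative of `uf`. -/
noncomputable def uf' (α ε R τ : ℝ) : ℝ :=
  ((1 - ε) * (deriv Real.smoothTransition ((τ - R ^ 2 / 4) / (3 * R ^ 2 / 4)) / (3 * R ^ 2 / 4)))
    * α * wf ε R τ ^ (α - 1)

theorem hasDerivAt_uf {α ε R : ℝ} (hε : 0 < ε) (hε1 : ε ≤ 1) (τ : ℝ) :
    HasDerivAt (uf α ε R) (uf' α ε R τ) τ := by
  have h : HasDerivAt (wf ε R) _ τ := ((hasDerivAt_cut R τ).const_mul (1 - ε)).const_add ε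
  exact h.rpow_const (Or.inl (wf_pos hε hε1 R τ).ne')

theorem uf'_nonneg {α ε R : ℝ} (hα : 0 ≤ α) (hε : 0 < ε) (hε1 : ε ≤ 1) (τ : ℝ) :
    0 ≤ uf' α ε R τ := by
  have h1 : 0 ≤ deriv Real.smoothTransition ((τ - R ^ 2 / 4) / (3 * R ^ 2 / 4)) :=
    Real.smoothTransition.monotone.deriv_nonneg
  have h2 := wf_pos hε hε1 R τ
  have h3 : 0 ≤ 1 - ε := by linarith
  unfold uf'; positivity

/-- The radial map about `c`. -/
noncomputable def phi (α ε R : ℝ) (c y : Sp n) : Sp n :=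
  c + uf α ε R (‖y - c‖ ^ 2) • (y - c)

/-- Its derivative. -/
noncomputable def dphi (α ε R : ℝ) (c y : Sp n) : Sp n →L[ℝ] Sp n :=
  rankOne (uf α ε R (‖y - c‖ ^ 2)) (2 * uf' α ε R (‖y - c‖ ^ 2)) (y - c)

theorem hasFDerivAt_phi {α ε R : ℝ} (hε : 0 < ε) (hε1 : ε ≤ 1) (c y : Sp n) :
    HasFDerivAt (phi α ε R c) (dphi α ε R c y) y := by
  have h1 : HasFDerivAt (fun y : Sp n => y - c) (ContinuousLinearMap.id ℝ (Sp n)) y :=
    (hasFDerivAt_id y).sub_const c
  have h2 := (hasDerivAt_uf (α := α) (R := R) hε hε1 (‖y - c‖ ^ 2)).comp_hasFDerivAt y h1.norm_sq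
  have h3 := (h2.smul h1).const_add c
  refine h3.congr_fderiv ?_
  ext x i
  simp [dphi, rankOne_apply, inner_sub_left]
  left; ring

theorem contDiff_phi {α ε R : ℝ} (hε : 0 < ε) (hε1 : ε ≤ 1) (c : Sp n) :
    ContDiff ℝ ∞ (phi α ε R c) := by
  have h1 : ContDiff ℝ ∞ (fun y : Sp n => uf α ε R (‖y - c‖ ^ 2)) :=
    (contDiff_uf hε hε1).comp ((contDiff_id.sub contDiff_const).norm_sq ℝ)
  have h2 : ContDiff ℝ ∞ (fun y : Sp n => y - c) := contDiff_id.sub contDiff_const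
  exact contDiff_const.add (h1.smul h2)

theorem phi_outer {α ε R : ℝ} (hR : 0 < R) {c y : Sp n} (h : R ≤ ‖y - c‖) :
    phi α ε R c y = y := by
  simp [phi, uf_outer hR (pow_le_pow_left₀ hR.le h 2)]

theorem uf_mono {α ε R : ℝ} (hα : 0 ≤ α) (hε : 0 < ε) (hε1 : ε ≤ 1) : Monotone (uf α ε R) :=
  monotone_of_deriv_nonneg (fun τ => (hasDerivAt_uf hε hε1 τ).differentiableAt)
    fun τ => by rw [(hasDerivAt_uf hε hε1 τ).deriv]; exact uf'_nonneg hα hε hε1 τ

theorem uf_pos {α ε R : ℝ} (hε : 0 < ε) (hε1 : ε ≤ 1) (τ : ℝ) : 0 < uf α ε R τ :=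
  Real.rpow_pos_of_pos (wf_pos hε hε1 R τ) _

theorem phi_bijective {α ε R : ℝ} (hα : 0 ≤ α) (hε : 0 < ε) (hε1 : ε ≤ 1) (hR : 0 < R)
    (c : Sp n) : Function.Bijective (phi α ε R c) := by
  let g : ℝ → ℝ := fun t => uf α ε R (t ^ 2) * t
  have hg : StrictMonoOn g (Ici 0) := by
    intro s hs t ht hst
    have h1 : s ^ 2 ≤ t ^ 2 := pow_le_pow_left₀ hs hst.le 2
    calc g s ≤ uf α ε R (t ^ 2) * s := mul_le_mul_of_nonneg_right (uf_mono hα hε hε1 h1) hs
      _ < g t := mul_lt_mul_of_pos_left hst (uf_pos hε hε1 _)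
  constructor
  · intro x y hxy
    have h : uf α ε R (‖x - c‖ ^ 2) • (x - c) = uf α ε R (‖y - c‖ ^ 2) • (y - c) :=
      add_left_cancel hxy
    have hn : g ‖x - c‖ = g ‖y - c‖ := by
      have := congrArg norm h
      rwa [norm_smul, norm_smul, Real.norm_of_nonneg (uf_pos hε hε1 _).le,
        Real.norm_of_nonneg (uf_pos hε hε1 _).le] at this
    have he : ‖x - c‖ = ‖y - c‖ := hg.injOn (norm_nonneg _) (norm_nonneg _) hn
    rw [he] at h
    have := smul_right_injective (Sp n) (uf_pos (α := α) (R := R) hε hε1 (‖y - c‖ ^ 2)).ne' h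
    exact sub_left_inj.mp this
  · intro x
    set a := ‖x - c‖ with ha
    set T := max R a with hT
    have hT0 : 0 ≤ T := hR.le.trans (le_max_left _ _)
    have hc : ContinuousOn g (Icc 0 T) :=
      (((contDiff_uf hε hε1).continuous.comp (continuous_pow 2)).mul continuous_id).continuousOn
    have hgT : g T = T := by
      show uf α ε R (T ^ 2) * T = T
      rw [uf_outer hR (pow_le_pow_left₀ hR.le (le_max_left R a) 2), one_mul]
    obtain ⟨t, ht, hta⟩ := intermediate_value_Icc hT0 hc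
      (show a ∈ Icc (g 0) (g T) by rw [hgT]; exact ⟨by simp [g, ha], le_max_right _ _⟩)
    rcases eq_or_lt_of_le (show (0:ℝ) ≤ a from norm_nonneg _) with h0 | h0
    · refine ⟨c, ?_⟩
      have : x = c := sub_eq_zero.mp (norm_eq_zero.mp h0.symm)
      simp [phi, this]
    · refine ⟨c + (t / a) • (x - c), ?_⟩
      have hn : ‖(t / a) • (x - c)‖ = t := by
        rw [norm_smul, Real.norm_of_nonneg (div_nonneg ht.1 h0.le), ← ha, div_mul_cancel₀ _ h0.ne']
      simp only [phi, add_sub_cancel_left, hn, smul_smul]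
      have hta' : uf α ε R (t ^ 2) * (t / a) = 1 := by
        rw [← mul_div_assoc]; exact (div_eq_one_iff_eq h0.ne').2 hta
      rw [hta', one_smul, add_sub_cancel]

/-- `C(n,p)`, independent of the ball and of the contraction. -/
theorem det_dphi_bound (hn : 1 ≤ n) {p : ℝ} (hpn : p < n) :
    ∃ C : ℝ, 0 < C ∧ ∀ (ε R : ℝ), 0 < ε → ε ≤ 1 → 0 < R → ∀ c y : Sp n, ‖y - c‖ ≤ R →
      |(dphi (1 / (n - p)) ε R c y).det| / uf (1 / (n - p)) ε R (‖y - c‖ ^ 2) ^ p ≤ C ∧
      (‖y - c‖ < R / 2 →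
        |(dphi (1 / (n - p)) ε R c y).det| / uf (1 / (n - p)) ε R (‖y - c‖ ^ 2) ^ p ≤ ε) := by
  obtain ⟨K, hK0, hK⟩ := exists_deriv_bound
  set d : ℝ := (n:ℝ) - p with hd
  have hd0 : 0 < d := by linarith
  refine ⟨1 + 3 * K / d, by positivity, fun ε R hε hε1 hR c y hy => ?_⟩
  set α : ℝ := 1 / d with hα
  have hα0 : 0 ≤ α := by positivity
  set s := ‖y - c‖ ^ 2 with hs
  set w := wf ε R s with hwdef
  have hw : 0 < w := wf_pos hε hε1 R s
  set q := deriv Real.smoothTransition ((s - R ^ 2 / 4) / (3 * R ^ 2 / 4)) with hq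
  have hq0 : 0 ≤ q := Real.smoothTransition.monotone.deriv_nonneg
  have hu : 0 < uf α ε R s := uf_pos hε hε1 s
  have hu' : 0 ≤ uf' α ε R s := uf'_nonneg hα0 hε hε1 s
  have hs0 : 0 ≤ s := by positivity
  have hdet : |(dphi α ε R c y).det| =
      uf α ε R s ^ (n - 1) * (uf α ε R s + 2 * uf' α ε R s * s) := by
    rw [dphi, det_rankOne hn hu.ne', ← hs]; exact abs_of_nonneg (by positivity)
  have hwu : ∀ e : ℝ, uf α ε R s ^ e = w ^ (α * e) := fun e => by
    rw [uf, ← Real.rpow_mul hw.le]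
  have hkey : |(dphi α ε R c y).det| / uf α ε R s ^ p
      = w + 2 * s * ((1 - ε) * (q / (3 * R ^ 2 / 4))) * α := by
    rw [hdet, div_eq_iff (Real.rpow_pos_of_pos hu p).ne', hwu p, ← Real.rpow_natCast _ (n-1),
      hwu, Nat.cast_sub hn, Nat.cast_one]
    have e1 : w ^ (α * ((n:ℝ) - 1)) * w ^ α = w * w ^ (α * p) := by
      rw [← Real.rpow_add hw]
      nth_rewrite 2 [← Real.rpow_one w]
      rw [← Real.rpow_add hw]
      congr 1
      rw [hα]; field_simp; rw [hd]; ring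
    have e2 : w ^ (α * ((n:ℝ) - 1)) * w ^ (α - 1) = w ^ (α * p) := by
      rw [← Real.rpow_add hw]
      congr 1
      rw [hα]; field_simp; rw [hd]; ring
    have e3 : uf α ε R s = w ^ α := rfl
    have e4 : uf' α ε R s = ((1 - ε) * (q / (3 * R ^ 2 / 4))) * α * w ^ (α - 1) := rfl
    rw [e3, e4]
    linear_combination e1 + (2 * s * ((1 - ε) * (q / (3 * R ^ 2 / 4))) * α) * e2
  constructor
  · rw [hkey]
    have h1 : w ≤ 1 := wf_le_one hε1 R s
    have h2 : s ≤ R ^ 2 := pow_le_pow_left₀ (norm_nonneg _) hy 2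
    have h3 : (1 - ε) * q ≤ K := by
      calc (1 - ε) * q ≤ 1 * q := mul_le_mul_of_nonneg_right (by linarith) hq0
        _ ≤ K := by rw [one_mul]; exact hK _
    have h4 : 2 * s * ((1 - ε) * (q / (3 * R ^ 2 / 4))) * α
        = (8 / 3) * (s / R ^ 2) * ((1 - ε) * q) * α := by field_simp; ring
    have h5 : (8 / 3 : ℝ) * (s / R ^ 2) * ((1 - ε) * q) * α ≤ 3 * 1 * K * α := by
      have : s / R ^ 2 ≤ 1 := (div_le_one (by positivity)).2 h2
      have : 0 ≤ (1 - ε) * q := mul_nonneg (by linarith) hq0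
      gcongr
      · norm_num
    rw [h4]
    have : 3 * 1 * K * α = 3 * K / d := by rw [hα]; ring
    linarith
  · intro hin
    rw [hkey]
    have hlt : s < R ^ 2 / 4 := by rw [hs]; nlinarith [norm_nonneg (y - c)]
    have hq' : q = 0 := by
      have hneg : (s - R ^ 2 / 4) / (3 * R ^ 2 / 4) < 0 :=
        div_neg_of_neg_of_pos (by linarith) (by positivity)
      have : Real.smoothTransition =ᶠ[𝓝 ((s - R ^ 2 / 4) / (3 * R ^ 2 / 4))] fun _ => (0:ℝ) :=
        eventually_of_mem (Iio_mem_nhds hneg) fun z hz =>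
          Real.smoothTransition.zero_of_nonpos (le_of_lt hz)
      rw [hq, this.deriv_eq, deriv_const]
    simp [hq', hwdef, wf, cut_inner hlt.le]

end Vale.Agent.P073.Balls
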